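import Mathlib
import Vale.Agent.P090.Main

namespace Vale.Agent.Results.P090.UniformlyDiscreteNoBAP

open Vale.Agent.P090

/-- A uniformly discrete countable metric space whose Lipschitz-free space fails the bounded
approximation property. -/
theorem result :
    ∃ (M : Type) (_ : MetricSpace M) (o : M),
      Countable M ∧ (∀ x y : M, x ≠ y → 1 ≤ dist x y) ∧ ¬ HasBAP (lipFree o) :=
  ⟨Node, inferInstance, hub, inferInstance, fun _ _ h => one_le_dist h, no_bap⟩

end Vale.Agent.Results.P090.UniformlyDiscreteNoBAP
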